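import Vale.Agent.P092.VR.H978.Faith

/-!
P092 (helper720), [CLASS-V]: Theorem C for the package `Pk`, for an acting group with (1) the pair
property (two conjugation invariant sets which commute elementwise: one of them is trivial) and (2) every
nontrivial normal subgroup is open and not compact.
-/

set_option linter.all false

open scoped InnerProductSpace Topology ENNReal NNReal ZeroAtInfty
open Filter ContinuousLinearMap MeasureTheory

namespace Vale.Agent.P092.VR.H720

open Vale.Agent.P092.H242.ThC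

section abs

variable {A L : Type*} [NonUnitalRing A] [StarRing A] [Module ℂ A] [SMulCommClass ℂ A A]
  [IsScalarTower ℂ A A]
  [NormedAddCommGroup L] [InnerProductSpace ℂ L] [CompleteSpace L] {j : A →ₗ[ℂ] L}

variable {H : Type} [Group H] [TopologicalSpace H] [IsTopologicalGroup H]
  [LocallyCompactSpace H] [T2Space H] [SecondCountableTopology H]
  [MeasurableSpace H] [BorelSpace H] {Y : Type*} [Group Y] [TopologicalSpace Y]
  [IsTopologicalGroup Y] [MeasurableSpace Y] [BorelSpace Y] [SecondCountableTopology Y]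
  {α : H → A → A} {U : H →* (L →L[ℂ] L)} {μ : Measure H} [μ.IsHaarMeasure]
  {r : Y → A → A} {R : Y →* (L →L[ℂ] L)} {ν : Measure Y}

open Vale.Agent.P092.H565 Vale.Agent.P092.H978 Vale.Agent.P092.H720 in
/-- **Theorem C**, single version. -/
theorem thmC_big [SFinite ν] [ν.IsMulLeftInvariant] [ν.IsInvInvariant] [ν.IsOpenPosMeasure]
    (hpair : ∀ S : Set H, (∀ s, ∀ t ∈ S, s * t * s⁻¹ ∈ S) →
      (∀ s ∈ S, ∀ t ∈ S, s * t = t * s) → S ⊆ {1})
    (hbig : ∀ N : Subgroup H, N.Normal → N ≠ ⊥ → IsOpen (N : Set H) ∧ ¬ IsCompact (N : Set H))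
    (P : Pk j α U μ r R ν) (a b : A) : j (a * b) = j (b * a) := by
  by_cases hne : ∃ a, j a ≠ 0
  · have hf := Vale.Agent.P092.VR.H978.faith_big hbig P hne
    have h0 := coef_van P.ha P.actH P.itgH
    refine single_comm P h0 (dense_ph P h0 hne hf) (Vale.Agent.P092.H978.thL P) ?_
      (fun S _ hS hc => hpair S hS hc) a b
    intro x n b c K hK
    have h1 : ∀ k, ⟪j x, Th P.ha P.actY P.itgY (b k) (c k) (j x)⟫_ℂ =
        ⟪j (c k), Th P.ha P.actY P.itgY (star x) (star x) (j (b k))⟫_ℂ := fun k =>
      psi_eq P x (b k) (c k)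
    simp_rw [h1]
    refine sup_bound P hf hne (fun y ξ => Th_R P.ha P.actY P.itgY (star x) (star x) y ξ)
      (posOp_Th P x) (fun k => j (b k)) (fun k => j (c k)) ?_
    intro t
    simpa only [P.actH.coe] using hK t
  · push Not at hne
    rw [hne, hne]

end abs

end Vale.Agent.P092.VR.H720
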