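import Vale.Agent.P092.QT.H720.C1
import Vale.Agent.P092.VR.H720.ThC
import Vale.Agent.P092.VR.QDefs

/-!
P092 (helper720), [CLASS-V], block [V-C1]: Theorem C for the two sided algebra, for places `FacV`:
`c1V : VR.Q.C1Stmt`.
-/

set_option linter.all false

open scoped InnerProductSpace Topology ENNReal NNReal ZeroAtInfty
open Filter ContinuousLinearMap MeasureTheory
open Vale.Agent.P092.H160
open Vale.Agent.P092.QT.H156.Sm
open Vale.Agent.P092.QT.H650

namespace Vale.Agent.P092.VR.H720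

open Vale.Agent.P092.QT.H715.Q
open Vale.Agent.P092.H242.ThC
open Vale.Agent.P092.QT.H720 (exists_pk comm_of_jj)

/-- **[V-C1]** -/
theorem c1V : Vale.Agent.P092.VR.Q.C1Stmt := by
  intro Γ X Y K G H _ _ _ _ _ _ _ _ _ _ _ _ _ _ _ _ _ _ _ _ _ _ _ _ _ V W f ρ f' ρ' ω ω' p κ μ _ _
    ν _ _ D hp hκ hG hH h1 h2 hne a b ha hb x y
  haveI : μ.IsInvInvariant := Vale.Agent.P092.QT.H448.Gal.invInv_of_right μ
  haveI : ν.IsInvInvariant := Vale.Agent.P092.QT.H448.Gal.invInv_of_right ν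
  obtain ⟨c, U, R, hc, P⟩ := exists_pk D hκ hp μ ν h1 h2
  have hc0 : (c : ℝ≥0∞) ≠ 0 := by exact_mod_cast hc
  haveI : (c • ν).IsHaarMeasure := Measure.IsHaarMeasure.nnreal_smul ν hc
  exact comm_of_jj D hκ hp (thmC_big (fun S hS hc => (hH.pair S S hS hS hc).elim id id) hH.big P)
    ha hb x y

end Vale.Agent.P092.VR.H720
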